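import Vale.Agent.P366F.Stmt
import Vale.Agent.P366RB.Defs
import Vale.Agent.P366XR.Defs
import Vale.Agent.P366MM.Defs

/-!
# P366F: the equality case; the shared definitions and the statements of the blocks
-/

open MeasureTheory Filter Topology Set
open scoped ContDiff
open Vale.Agent.P366 Vale.Agent.P366.Stmt
open Vale.Agent.P366M (Mfe Exterior Fld Ch At ch pt loc rep repV CAt px fe)
open Vale.Agent.P366RB (O2 lo cK)
open Vale.Agent.P366P (cd)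
open Vale.Agent.P366DV (Out Stat Iso Edge Outer ms)

noncomputable section

namespace Vale.Agent.P366F

variable {n : ℕ}

/-! ### in a chart -/

/-- the covector `p = dN + K X` -/
def pp (K : Field n) (N : E n → ℝ) (X : Fin n → E n → ℝ) (i : Fin n) (y : E n) : ℝ :=
  pd i N y + ∑ j, K y i j * X j y

/-- the tensor `a_ij = D_i X_j + N K_ij` -/
def aa (g K : Field n) (N : E n → ℝ) (X : Fin n → E n → ℝ) : Field n := fun y i j =>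
  ∑ k, g y j k * cd g X k i y + N y * K y i j

/-- the equations of the multiplier where there is no source; `X` is a vector field -/
structure Kq (g K : Field n) (N : E n → ℝ) (X : Fin n → E n → ℝ) (y : E n) : Prop where
  smN : ContDiffAt ℝ ∞ N y
  smX : ∀ i, ContDiffAt ℝ ∞ (X i) y
  kil : P366XR.Kid g K N X y
  ee : ∀ i j, P366XR.EE g K N X y i j = (lo g X i y * mom g K j y + lo g X j y * mom g K i y) / 2

/-- vacuum Killing initial data at `y`: `P366RB.Kid` without the last equation -/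
structure Kv (g K a : Field n) (N : E n → ℝ) (X p : Fin n → E n → ℝ) (y : E n) : Prop where
  smN : ContDiffAt ℝ ∞ N y
  smX : ∀ i, ContDiffAt ℝ ∞ (X i) y
  smp : ∀ i, ContDiffAt ℝ ∞ (p i) y
  sma : ∀ i j, ContDiffAt ℝ ∞ (fun z => a z i j) y
  N0 : 0 < N y
  l0 : P366RB.sq g X y < N y ^ 2
  dN : ∀ i, pd i N y = p i y - ∑ j, K y i j * X j y
  dX : ∀ i j, ∑ k, g y j k * (pd i (X k) y + ∑ l, chr g k i l y * X l y) = a y i j - N y * K y i j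
  dp : ∀ i j, pd i (p j) y - ∑ l, chr g l i j y * p l y =
    N y * (P366Y.C.rc g y i j + tr g K y * K y i j - ∑ k, ∑ l, up g k l y * K y i k * K y l j) +
      ∑ k, X k y * (cK g K i j k y - cK g K k i j y) - ∑ k, ∑ l, up g k l y * K y i k * a y j l
  dv : ∑ i, ∑ j, up g i j y * (pd i (p j) y - ∑ l, chr g l i j y * p l y) = 0
  sk : ∀ i j, a y i j = -a y j i
  mu0 : mu g K y = 0
  J0 : ∀ j, mom g K j y = 0

theorem Kv.kid {g K a : Field n} {N : E n → ℝ} {X p : Fin n → E n → ℝ} {y : E n}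
    (h : Kv g K a N X p y) (st : ∀ i j, N y * a y i j = p i y * lo g X j y - lo g X i y * p j y) :
    P366RB.Kid g K a N X p y :=
  ⟨h.smN, h.smX, h.smp, h.N0, h.l0, h.dN, h.dX, h.dp, h.dv, st⟩

/-- the trace of `D Y + φ K` over the orthogonal complement of the unit vector `ν` -/
def Qc (g K : Field n) (Y : Fin n → E n → ℝ) (φ : E n → ℝ) (y : E n) (ν : Fin n → ℝ) : ℝ :=
  ∑ i, cd g Y i i y - ∑ i, ∑ j, ∑ k, g y i k * ν k * ν j * cd g Y i j y +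
    φ y * (tr g K y - ∑ i, ∑ j, K y i j * ν i * ν j)

/-- the jet of order one -/
def jet (N : E n → ℝ) (X : Fin n → E n → ℝ) : Option (Fin n) × Option (Fin n) → E n → ℝ
  | (none, none) => N
  | (none, some i) => pd i N
  | (some k, none) => X k
  | (some k, some i) => pd i (X k)

/-! ### on the manifold -/

/-- initial data with a multiplier `(N, X)`, which is smooth on `U` -/
structure Dat (n : ℕ) (M : Type) [Mfe n M] where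
  D : Exterior n M
  N : M → ℝ
  X : Fin n → M → ℝ
  U : Set M
  q : ℝ
  κ : ℝ
  N0 : ℝ
  X0 : Fin n → ℝ

variable {M : Type} [Mfe n M]

namespace Dat

variable (Z : Dat n M)

/-- the fields in the chart `e` -/
abbrev g (e : Ch n M) : Field n := rep e Z.D.g
abbrev K (e : Ch n M) : Field n := rep e Z.D.K
abbrev Nc (e : Ch n M) : E n → ℝ := loc e Z.N
abbrev Xc (e : Ch n M) : Fin n → E n → ℝ := repV e Z.X
abbrev p (e : Ch n M) : Fin n → E n → ℝ := pp (Z.K e) (Z.Nc e) (Z.Xc e)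
abbrev a (e : Ch n M) : Field n := aa (Z.g e) (Z.K e) (Z.Nc e) (Z.Xc e)

/-- the domain in the chart `e` -/
abbrev Om (e : Ch n M) : Set (E n) := {y | 0 ≤ Z.D.F (e.symm y)}

/-- the interior of the domain in the chart `e` -/
abbrev Oi (e : Ch n M) : Set (E n) := {y | 0 < Z.D.F (e.symm y)}

/-- `λ = N ^ 2 - |X| ^ 2` -/
def lam (x : M) : ℝ := Z.N x ^ 2 - P366MM.sq Z.D.g x fun i => Z.X i x

/-- the static potential -/
def pot (x : M) : ℝ := √(Z.lam x)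

/-- the metric of the quotient -/
def quo : Fld n M := fun x i j =>
  Z.D.g x i j + (∑ k, Z.D.g x i k * Z.X k x) * (∑ k, Z.D.g x j k * Z.X k x) / Z.lam x

/-- `|p| ^ 2 - |a| ^ 2 / 2` -/
def w0 (x : M) : ℝ := ∑ i, ∑ j, up (Z.g (ch x)) i j (pt x) * Z.p (ch x) i (pt x) *
  Z.p (ch x) j (pt x) - normSq (Z.g (ch x)) (Z.a (ch x)) (pt x) / 2

/-- the covector `d λ / 2 = N p - a X` -/
def w (e : Ch n M) (i : Fin n) (y : E n) : ℝ :=
  Z.Nc e y * Z.p e i y - ∑ j, Z.a e y i j * Z.Xc e j y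

/-- the twist `N a + X ∧ p` -/
def tw (e : Ch n M) : Field n := fun y i j =>
  Z.Nc e y * Z.a e y i j + lo (Z.g e) (Z.Xc e) i y * Z.p e j y - lo (Z.g e) (Z.Xc e) j y * Z.p e i y

/-- `p (grad φ)` times the density -/
def pφ (e : Ch n M) (φ : E n → ℝ) (y : E n) : ℝ :=
  (∑ i, ∑ j, up (Z.g e) i j y * Z.p e i y * pd j φ y) * P366Z.dens (Z.g e) y

/-- the output of the multiplier rule, the smooth part -/
structure Ok : Prop where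
  dim : 3 ≤ n
  dec : Z.D.DEC
  mar : ∀ x, Z.D.F x = 0 → P366M.thetaPlus Z.D.g Z.D.K Z.D.F x = 0
  op : IsOpen Z.U
  sub : ∀ x ∈ Z.U, 0 < Z.D.F x
  far : ∃ R, ∀ x : M, R < ‖px x‖ → x ∈ Z.U
  eq : ∀ e ∈ At M, ∀ y, e.symm y ∈ Z.U → Kq (Z.g e) (Z.K e) (Z.Nc e) (Z.Xc e) y
  nn : ∀ x, 0 ≤ Z.D.F x → 0 ≤ Z.N x
  le : ∀ x, 0 ≤ Z.D.F x → 0 ≤ Z.lam x
  dust : ∀ x ∈ Z.U, Z.N x * P366M.mu Z.D.g Z.D.K x + ∑ j, Z.X j x * P366M.mom Z.D.g Z.D.K j x = 0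
  lipN : ∀ e ∈ At M, LocallyLipschitzOn (Z.Om e) (Z.Nc e)
  lipX : ∀ e ∈ At M, ∀ i, LocallyLipschitzOn (Z.Om e) (Z.Xc e i)
  q0 : (n : ℝ) / 2 - 1 < Z.q
  og : ∀ i j, O2 Z.q (if i = j then 1 else 0) fun y => fe Z.D.g y i j
  oK : ∀ i j, BigO (Z.q + 1) (fun y => fe Z.D.K y i j) ∧
    ∀ k, BigO (Z.q + 1 + 1) (pd k fun y => fe Z.D.K y i j)
  oN : O2 Z.q Z.N0 (fe Z.N)
  oX : ∀ i, O2 Z.q (Z.X0 i) (fe (Z.X i))
  pos : 0 < Z.N0
  one : Z.N0 ^ 2 - ∑ i, Z.X0 i ^ 2 = 1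
  κ0 : 0 < Z.κ
  kom : Tendsto (fun r => ∫ x, (∑ i, ∑ j, P366M.up Z.D.g i j x * P366M.pd i (P366M.cut r) x *
    Z.p (ch x) j (pt x)) * P366M.dens Z.D.g x) atTop (𝓝 (-((n - 2) * omega n * ms n Z.κ)))

/-- the output of the multiplier rule, the weak part -/
structure Wk : Prop where
  wk : ∀ e ∈ At M, ∀ᵐ y, y ∈ Z.Oi e → P366XR.Kid (Z.g e) (Z.K e) (Z.Nc e) (Z.Xc e) y
  db1 : ∀ e ∈ At M, ∀ φ, Smooth φ → HasCompactSupport φ → (∀ y, 0 ≤ φ y) →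
    -∫ y in Z.Om e, Z.pφ e φ y ≤ Z.κ * ∫ y in Z.Om e, P366Z.gn (Z.g e) φ y * P366Z.dens (Z.g e) y
  db2 : ∀ W : Set M, IsOpen W → IsPreconnected W → W ⊆ Z.U → (∃ R, ∀ x : M, R < ‖px x‖ → x ∈ W) →
    ∀ e ∈ At M, ∀ φ, Smooth φ → HasCompactSupport φ → tsupport φ ⊆ Z.Oi e → (∀ y, 0 ≤ φ y) →
    -∫ y, Z.pφ e φ y ≤
      Z.κ * ∫ y in {y | e.symm y ∉ W}, P366Z.gn (Z.g e) φ y * P366Z.dens (Z.g e) y
  v1 : ∀ e ∈ At M, ∀ (Y : Fin n → E n → ℝ) (φ : E n → ℝ) (C : Set (E n)) (x : E n), IsCompact C →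
    C ⊆ Z.Oi e → (∀ i, Smooth (Y i)) → Smooth φ → (∀ y ∉ C, φ y = 0 ∧ ∀ i, Y i y = 0) →
    x ∈ Z.Oi e → e.symm x ∉ Z.U →
    (∀ y ν, e.symm y ∉ Z.U → ∑ i, ∑ j, Z.g e y i j * ν i * ν j = 1 →
      0 ≤ Qc (Z.g e) (Z.K e) Y φ y ν) →
    ∃ ν, ∑ i, ∑ j, Z.g e x i j * ν i * ν j = 1 ∧ Qc (Z.g e) (Z.K e) Y φ x ν ≤ 0

/-- `W` is the unbounded component of the part of `U` where `λ` is positive -/
structure Cp (W : Set M) : Prop where
  op : IsOpen W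
  con : IsPreconnected W
  sub : W ⊆ Z.U
  pos : ∀ x ∈ W, 0 < Z.lam x
  far : ∃ R, ∀ x : M, R < ‖px x‖ → x ∈ W
  fr : ∀ x ∈ frontier W, x ∉ Z.U ∨ Z.lam x = 0

/-- the jet solves a linear system with coefficients which are smooth on the whole chart -/
def Sys : Prop := ∀ e ∈ At M, ∃ A : Fin n → _ → _ → E n → ℝ, (∀ i α β, Smooth (A i α β)) ∧
  ∀ y, e.symm y ∈ Z.U → ∀ i α,
    pd i (jet (Z.Nc e) (Z.Xc e) α) y = ∑ β, A i α β y * jet (Z.Nc e) (Z.Xc e) β y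

/-- all the derivatives are bounded on `U` -/
def Bnd : Prop := ∀ e ∈ At M, ∀ (C : Set (E n)) (k : ℕ), IsCompact C → ∃ B, ∀ y ∈ C,
  e.symm y ∈ Z.U → ‖iteratedFDeriv ℝ k (Z.Nc e) y‖ ≤ B ∧ ∀ i, ‖iteratedFDeriv ℝ k (Z.Xc e i) y‖ ≤ B

/-- the null convergence condition -/
def Ncc : Prop := ∀ e ∈ At M, ∀ y (u : E n → ℝ), e.symm y ∈ Z.U → 0 < P366Z.gn (Z.g e) u y →
  0 ≤ P366XR.Nc (Z.g e) (Z.K e) (Z.Nc e) (Z.Xc e) u y

/-- vacuum on `W` -/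
def Vac (W : Set M) : Prop := ∀ e ∈ At M, ∀ y, e.symm y ∈ W →
  Kv (Z.g e) (Z.K e) (Z.a e) (Z.Nc e) (Z.Xc e) (Z.p e) y

/-- the complement of `U` is trapped in the sense of barriers -/
def V1c : Prop := ∀ (f : M → ℝ) (x : M), P366M.Smooth f → x ∉ Z.U → f x = 0 →
  (∃ i, P366M.pd i f x ≠ 0) → (∀ᶠ y in 𝓝 x, y ∉ Z.U → f y ≤ 0) →
  P366M.thetaPlus Z.D.g Z.D.K f x ≤ 0

/-- no timelike direction leads from the complement of `U` into `W` -/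
def Esc (W : Set M) : Prop := ∀ e ∈ At M, ∀ y v : E n, y ∈ Z.Om e → e.symm y ∉ Z.U →
  P366RB.sq (Z.g e) (fun i z => v i + Z.Xc e i z) y < Z.Nc e y ^ 2 →
  ¬∀ᶠ t : ℝ in 𝓝[>] 0, e.symm (y + t • v) ∈ W

/-- the bound `|d λ (M X)| ≤ C λ` -/
def Hd (W : Set M) : Prop := ∀ R, ∃ C, ∀ x ∈ W, ‖px x‖ ≤ R →
  |∑ i, ∑ j, ∑ k, up (Z.g (ch x)) i j (pt x) * Z.w (ch x) i (pt x) * Z.tw (ch x) (pt x) j k *
    Z.X k x| ≤ C * Z.lam x

/-- the twist vanishes on `W` -/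
def St (W : Set M) : Prop := ∀ e ∈ At M, ∀ y, e.symm y ∈ W → ∀ i j,
  Z.Nc e y * Z.a e y i j = Z.p e i y * lo (Z.g e) (Z.Xc e) j y - lo (Z.g e) (Z.Xc e) i y * Z.p e j y

/-- `{0 < s}` lies in `W` near `x`, `X = N ν` at `x`, and `p`, `a` have limits from `{0 < s}` -/
structure Tc (W : Set M) (x : M) (s : M → ℝ) (p0 : Fin n → ℝ) : Prop where
  om : 0 ≤ Z.D.F x
  sm : CAt ∞ s x
  s0 : s x = 0
  ds : ∃ i, P366M.pd i s x ≠ 0
  ins : ∀ᶠ z in 𝓝 x, 0 < s z → z ∈ W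
  eq : ∀ i, Z.X i x = Z.N x * P366M.nrm Z.D.g s i x
  tp : ∀ i, Tendsto (Z.p (ch x) i) (𝓝[{y | 0 < loc (ch x) s y}] pt x) (𝓝 (p0 i))
  ta : ∀ i j, ∃ c, Tendsto (fun y => Z.a (ch x) y i j) (𝓝[{y | 0 < loc (ch x) s y}] pt x) (𝓝 c)

/-- the bound for the surface gravity -/
def Pan (W : Set M) : Prop := ∀ x s p0, Z.Tc W x s p0 →
  ∑ i, p0 i * P366M.nrm Z.D.g s i x ≤ Z.κ

/-- no sheet with `W` on both sides -/
def Pan2 (W : Set M) : Prop := ∀ x s p0 (s' : M → ℝ), Z.Tc W x s p0 → CAt ∞ s' x → s' x = 0 →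
  (∃ i, P366M.pd i s' x ≠ 0) → (∀ᶠ z in 𝓝 x, 0 < s' z → z ∈ W ∧ s z < 0) → Z.N x = 0 →
  ∑ i, p0 i * P366M.nrm Z.D.g s i x ≤ 0

/-- the upper limit of `w0` at the frontier -/
def Lim (W : Set M) : Prop := ∀ ε > 0, ∃ d > 0, ∀ x ∈ W, Z.pot x ≤ d → Z.w0 x ≤ Z.κ ^ 2 + ε

end Dat

/-- the interior of the domain is a slice of Schwarzschild–Tangherlini -/
def Slice (D : Exterior n M) (m : ℝ) : Prop := ∃ Φ : Fin (n + 1) → M → ℝ,
  (∀ a x, 0 < D.F x → CAt ∞ (Φ a) x) ∧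
  BijOn (fun x => (WithLp.toLp 2 fun i => Φ i.succ x : E n)) {x | 0 < D.F x}
    {y | 0 < len y ∧ 0 < T4.stF m y} ∧
  ∀ e ∈ At M, ∀ y, 0 < D.F (e.symm y) →
    ∃ ν, P366N.St.SliceAt m (rep e D.g) (rep e D.K) (fun a => loc e (Φ a)) ν y

/-- the hypotheses of the equality case -/
structure Hyp (D : Exterior n M) (m : ℝ) (P : Fin n → ℝ) : Prop where
  dim : 3 ≤ n
  af : D.IsAF
  dec : D.DEC
  mar : ∀ x, D.F x = 0 → P366M.thetaPlus D.g D.K D.F x = 0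
  en : D.IsEnergy m
  mo : D.IsMomentum P
  eq : (D.Amin.toReal / omega n) ^ (((n : ℝ) - 2) / (n - 1)) / 2 = √(m ^ 2 - ∑ i, P i ^ 2)

/-- a statement about all data -/
def All (B : ∀ (n : ℕ) (M : Type) [Mfe n M], Dat n M → Set M → Prop) : Prop :=
  ∀ (n : ℕ) (M : Type) [Mfe n M] (Z : Dat n M) (W : Set M), Z.Ok → B n M Z W

/-- **EQM**: the equality case on the manifold -/
def EQM : Prop := ∀ (n : ℕ) (M : Type) [Mfe n M] (D : Exterior n M) (m : ℝ) (P : Fin n → ℝ),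
  Hyp D m P → Outer D → Slice D √(m ^ 2 - ∑ i, P i ^ 2)

/-- **KOUT**: the multiplier rule -/
def KOUT : Prop := ∀ (n : ℕ) (M : Type) [Mfe n M] (D : Exterior n M) (m : ℝ) (P : Fin n → ℝ),
  Hyp D m P → ∃ Z : Dat n M, Z.D = D ∧ Z.Ok ∧ Z.Wk ∧ ms n Z.κ = √(m ^ 2 - ∑ i, P i ^ 2)

def SYS : Prop := All fun _ _ _ Z _ => Z.Sys
def BND : Prop := All fun _ _ _ Z _ => Z.Sys → Z.Bnd
def NCC : Prop := All fun _ _ _ Z _ => Z.Ncc
def VAC : Prop := All fun _ _ _ Z W => Z.Cp W → Z.Vac W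
def CMP : Prop := All fun _ _ _ Z _ => ∃ W, Z.Cp W
def OUT : Prop := All fun _ _ _ Z W => Z.Cp W → Z.Esc W →
  (∀ x ∈ frontier W, Z.lam x = 0) ∧ Out W Z.pot 0
def V1 : Prop := All fun _ _ _ Z _ => Z.Wk → Z.V1c
def V2 : Prop := All fun _ _ _ Z W => Z.Bnd → Z.Ncc → Z.V1c → Z.Cp W → Z.Esc W
def PAN : Prop := All fun _ _ _ Z W => Z.Wk → Z.Cp W → Z.Pan W ∧ Z.Pan2 W

/-- what is known about `W` before the staticity -/
structure Pre (Z : Dat n M) (W : Set M) : Prop where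
  sys : Z.Sys
  bnd : Z.Bnd
  cp : Z.Cp W
  vac : Z.Vac W
  esc : Z.Esc W
  fr : ∀ x ∈ frontier W, Z.lam x = 0
  out : Out W Z.pot 0

def HD : Prop := All fun _ _ _ Z W => Pre Z W → Z.Hd W
def S1 : Prop := All fun _ _ _ Z W => Pre Z W → Z.Hd W → Z.St W
def LIM : Prop := All fun _ _ _ Z W => Pre Z W → Z.St W → Z.Pan W → Z.Lim W
def S2 : Prop := All fun _ _ _ Z W => Pre Z W → Z.St W → Z.Lim W → ∃ q, Stat W Z.quo Z.pot Z.κ q
def EDGE : Prop := All fun _ _ _ Z W => Pre Z W → Z.St W → Z.Pan2 W →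
  (∃ q, Stat W Z.quo Z.pot Z.κ q) → ∀ x ∈ frontier W, Edge Z.D W x
def S3B : Prop := All fun n _ _ Z W => Pre Z W → Z.St W → W = {x | 0 < Z.D.F x} →
  (∃ y, Iso W Z.quo Z.pot (ms n Z.κ) y) → Slice Z.D (ms n Z.κ)

/-- the blocks give the equality case on the manifold -/
theorem eqm_of (h0 : KOUT) (h1 : SYS) (h2 : BND) (h3 : NCC) (h4 : VAC) (h5 : CMP) (h6 : OUT)
    (h7 : V1) (h8 : V2) (h9 : PAN) (k1 : HD) (k2 : S1) (k3 : LIM) (k4 : S2) (k5 : EDGE)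
    (k6 : P366DV.S3A) (k7 : S3B) : EQM := by
  intro n M _ D m P H hO
  obtain ⟨Z, rfl, hZ, hW, hm⟩ := h0 n M D m P H
  obtain ⟨W, hc⟩ := h5 n M Z ∅ hZ
  have hs := h1 n M Z W hZ
  have hb := h2 n M Z W hZ hs
  have he := h8 n M Z W hZ hb (h3 n M Z W hZ) (h7 n M Z W hZ hW) hc
  have ho := h6 n M Z W hZ hc he
  have hp : Pre Z W := ⟨hs, hb, hc, h4 n M Z W hZ hc, he, ho.1, ho.2⟩
  have hst := k2 n M Z W hZ hp (k1 n M Z W hZ hp)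
  have hpan := h9 n M Z W hZ hW hc
  have h2' := k4 n M Z W hZ hp hst (k3 n M Z W hZ hp hst hpan.1)
  have hed := k5 n M Z W hZ hp hst hpan.2 h2'
  obtain ⟨q, hq⟩ := h2'
  obtain ⟨hU, hy⟩ := k6 n M Z.D W _ _ _ q hZ.dim hO (fun x hx => hZ.sub x (hc.sub hx)) hed hq
  exact hm ▸ k7 n M Z W hZ hp hst hU hy

end Vale.Agent.P366F
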