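import Vale.Agent.P366F.Defs
import Vale.Agent.P366RB.Glue
import Vale.Agent.P366EN.End
import Vale.Agent.P366NW.New
import Vale.Agent.P366NW.Rob
import Vale.Agent.P366SB.Main
import Vale.Agent.P366SB.Tr
import Vale.Agent.P366DV.Loc

/-!
# P366F: the small blocks
-/

open MeasureTheory Filter Topology Set Metric
open scoped ContDiff
open Vale.Agent.P366M Vale.Agent.P366DV
open Vale.Agent.P366.Stmt (E)

noncomputable section

namespace Vale.Agent.P366F

variable {n : ℕ} {M : Type} [Mfe n M] {Z : Dat n M} {W : Set M} {x : M} {e : Ch n M}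

theorem lam_loc (Z : Dat n M) (he : e ∈ At M) (y : E n) :
    Z.lam (e.symm y) = Z.Nc e y ^ 2 - P366RB.sq (Z.g e) (Z.Xc e) y := by
  rw [P366RB.sq, quad_rep he]; rfl

theorem contOn_of {f : M → ℝ} {s : Set M}
    (h : ∀ x ∈ s, ContinuousWithinAt (loc (ch x) f) ((ch x).symm ⁻¹' s) (pt x)) :
    ContinuousOn f s := fun x hx => by
  have h1 : Tendsto (ch x) (𝓝[s] x) (𝓝[(ch x).symm ⁻¹' s] pt x) := by
    refine tendsto_nhdsWithin_iff.2 ⟨((ch x).continuousAt (mem_ch x)).tendsto.mono_left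
      nhdsWithin_le_nhds, ?_⟩
    filter_upwards [self_mem_nhdsWithin,
      nhdsWithin_le_nhds ((ch x).open_source.mem_nhds (mem_ch x))] with z h1 h2
    rwa [mem_preimage, (ch x).left_inv h2]
  have h2 := (h x hx).tendsto.comp h1
  rw [loc_pt] at h2
  refine h2.congr' ?_
  filter_upwards [nhdsWithin_le_nhds ((ch x).open_source.mem_nhds (mem_ch x))] with z h2
  exact congrArg f ((ch x).left_inv h2)

theorem Dat.Ok.cN (hZ : Z.Ok) : ContinuousOn Z.N {x | 0 ≤ Z.D.F x} := contOn_of fun x hx =>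
  (hZ.lipN _ (ch_mem x)).continuousOn _ (by simpa using hx)

theorem Dat.Ok.clam' (hZ : Z.Ok) (he : e ∈ At M) : ContinuousOn (loc e Z.lam) (Z.Om e) := by
  rw [show loc e Z.lam = _ from funext (lam_loc Z he)]
  refine ((hZ.lipN e he).continuousOn.pow 2).sub (continuousOn_finsetSum _ fun i _ =>
    continuousOn_finsetSum _ fun j _ => ?_)
  exact ((Z.D.met.sm e he i j).continuous.continuousOn.mul (hZ.lipX e he i).continuousOn).mul
    (hZ.lipX e he j).continuousOn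

theorem Dat.Ok.clam (hZ : Z.Ok) : ContinuousOn Z.lam {x | 0 ≤ Z.D.F x} := contOn_of fun x hx =>
  hZ.clam' (ch_mem x) _ (by simpa using hx)

theorem Dat.Ok.cls (hZ : Z.Ok) (h : W ⊆ Z.U) : closure W ⊆ {x | 0 ≤ Z.D.F x} :=
  closure_minimal (fun x hx => (hZ.sub x (h hx)).le)
    (isClosed_le continuous_const Z.D.dom.1.cont)

theorem Dat.Ok.qpos (hZ : Z.Ok) : 0 < Z.q := by
  have : (3 : ℝ) ≤ n := by exact_mod_cast hZ.dim
  linarith [hZ.q0]

theorem Dat.Ok.opos (hZ : Z.Ok) : IsOpen {x ∈ Z.U | 0 < Z.lam x} :=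
  (hZ.clam.mono fun x hx => (hZ.sub x hx).le).isOpen_inter_preimage hZ.op isOpen_Ioi

theorem conn_far (hn : 3 ≤ n) {R : ℝ} (hR : R0 M ≤ R) : IsPreconnected {x : M | R < ‖px x‖} := by
  have h0 := R0_ge M
  have h1 : IsPreconnected {y : E n | R < ‖y‖} := by
    have : {y : E n | R < ‖y‖} = (fun p : ℝ × E n => p.1 • p.2) '' (Ioi R ×ˢ sphere 0 1) := by
      ext y
      refine ⟨fun h => ⟨(‖y‖, ‖y‖⁻¹ • y), ⟨h, ?_⟩, ?_⟩, ?_⟩
      · have : 0 < ‖y‖ := by have : R < ‖y‖ := h; linarith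
        simp [norm_smul, this.ne']
      · have : 0 < ‖y‖ := by have : R < ‖y‖ := h; linarith
        simp [smul_smul, this.ne']
      · rintro ⟨⟨t, z⟩, ⟨h1, h2⟩, rfl⟩
        have h3 : R < t := h1
        have h4 : ‖z‖ = 1 := by simpa using h2
        have : 0 < t := by linarith
        simpa [norm_smul, h4, abs_of_pos this] using h3
    rw [this]
    refine (isPreconnected_Ioi.prod (isPreconnected_sphere ?_ 0 1)).image _ (by fun_prop)
    rw [← Module.finrank_eq_rank, finrank_euclideanSpace_fin]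
    exact_mod_cast (by omega : 1 < n)
  have h2 := h1.image (yp : E n → M) ((contOn_ye Mfe.o).mono fun y hy =>
    hR.trans (le_of_lt hy))
  rwa [← preimage_px_one (B := {y | R < ‖y‖}) fun y hy => hR.trans (le_of_lt hy)] at h2

theorem Dat.Ok.lfar (hZ : Z.Ok) : ∃ R, ∀ x : M, R < ‖px x‖ → 0 < Z.lam x := by
  have h := P366OC.lim hZ.qpos (P366RB.o_quo hZ.qpos hZ.og hZ.oN hZ.oX hZ.one).1.d0
  obtain ⟨R, hR⟩ := P366OC.ev_iff.2 (h.eventually (lt_mem_nhds one_pos))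
  refine ⟨max R (R0 M), fun x hx => ?_⟩
  have h1 := hR _ ((le_max_left _ _).trans_lt hx)
  have h2 : yp (px x) = x := yp_px (by linarith [(le_max_right _ _).trans_lt hx])
  have h3 := Real.sqrt_pos.1 h1
  simp only [P366RB.sq, fe, h2] at h3
  exact h3

theorem cmp : CMP := fun n M _ Z _ hZ => by
  have := ChartedSpace.locallyConnectedSpace (E n) M
  obtain ⟨R1, h1⟩ := hZ.far
  obtain ⟨R2, h2⟩ := hZ.lfar
  set R := max (max R1 R2) (R0 M)
  set O := {x ∈ Z.U | 0 < Z.lam x}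
  have hs : {x : M | R < ‖px x‖} ⊆ O := fun x hx =>
    ⟨h1 x (((le_max_left _ _).trans (le_max_left _ _)).trans_lt hx),
      h2 x (((le_max_right _ _).trans (le_max_left _ _)).trans_lt hx)⟩
  have hR : R0 M ≤ R := le_max_right _ _
  have h0 := R0_ge M
  have i : Fin n := ⟨0, by have := hZ.dim; omega⟩
  let y : E n := EuclideanSpace.single i (R + 1)
  have hy : ‖y‖ = R + 1 := by simp [y, abs_of_pos (show 0 < R + 1 by linarith)]
  have hx : (yp y : M) ∈ {x : M | R < ‖px x‖} := by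
    rw [mem_ofPred_eq, px_yp (by linarith), hy]; linarith
  refine ⟨connectedComponentIn O (yp y), hZ.opos.connectedComponentIn,
    isPreconnected_connectedComponentIn, fun x hx => (connectedComponentIn_subset _ _ hx).1,
    fun x hx => (connectedComponentIn_subset _ _ hx).2,
    ⟨R, fun x h => (conn_far hZ.dim hR).subset_connectedComponentIn hx hs h⟩, fun x h => ?_⟩
  by_contra! k
  have k1 : x ∈ O := ⟨k.1, (hZ.le x (hZ.sub x k.1).le).lt_of_ne' k.2⟩
  obtain ⟨z, z1, z2⟩ := mem_closure_iff.1 h.1 _ hZ.opos.connectedComponentIn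
    (mem_connectedComponentIn k1)
  refine h.2 ?_
  rw [hZ.opos.connectedComponentIn.interior_eq, connectedComponentIn_eq z2,
    ← connectedComponentIn_eq z1]
  exact mem_connectedComponentIn k1

theorem fr_zero (hZ : Z.Ok) (hc : Z.Cp W) (hE : Z.Esc W) (hx : x ∈ frontier W) : Z.lam x = 0 := by
  have he := ch_mem x
  have hΩ := hZ.cls hc.sub
  by_contra k
  have k1 : 0 < loc (ch x) Z.lam (pt x) := by
    rw [loc_pt]; exact (hZ.le x (hΩ hx.1)).lt_of_ne' k
  obtain ⟨r, r0, hr⟩ := Metric.eventually_nhds_iff.1 (eventually_nhdsWithin_iff.1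
    ((hZ.clam' he _ (by simpa using hΩ hx.1)).eventually (lt_mem_nhds k1)))
  set O := (ch x).symm ⁻¹' W
  have hO : IsOpen O := hc.op.preimage (cont_symm he)
  have hx' : pt x ∈ Oᶜ := fun h => hx.2 (by rw [hc.op.interior_eq]; simpa [O] using h)
  obtain ⟨z, z1, z2⟩ : ∃ z ∈ O, dist z (pt x) < r / 2 := by
    have := (ev_pt (x := x) (p := fun z => z ∉ W)).not.1 (mem_closure_iff_frequently.1 hx.1)
    by_contra! h
    exact this (Metric.eventually_nhds_iff.2 ⟨r / 2, half_pos r0, fun z hz h' => (h z h').not_gt hz⟩)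
  obtain ⟨y, y1, y2⟩ := hO.isClosed_compl.exists_infDist_eq_dist ⟨_, hx'⟩ z
  have y3 : dist z y < r / 2 := y2 ▸ (infDist_le_dist_of_mem hx').trans_lt z2
  have y4 : 0 < dist z y := dist_pos.2 fun h => y1 (h ▸ z1)
  have y5 : ∀ t ∈ Ioc (0 : ℝ) 1, y + t • (z - y) ∈ O := fun t ht => by
    refine not_not.1 fun h => (infDist_le_dist_of_mem (x := z) (show _ ∈ Oᶜ from h)).not_gt ?_
    rw [y2, dist_eq_norm, show z - (y + t • (z - y)) = (1 - t) • (z - y) by module, norm_smul,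
      Real.norm_of_nonneg (sub_nonneg.2 ht.2), ← dist_eq_norm]
    nlinarith [ht.1]
  have y6 : (ch x).symm y ∈ closure W := by
    have : Tendsto (fun t : ℝ => (ch x).symm (y + t • (z - y))) (𝓝[>] 0) (𝓝 ((ch x).symm y)) :=
      (((cont_symm he).comp (by fun_prop : Continuous fun t : ℝ => y + t • (z - y))).tendsto' 0 _
        (by simp)).mono_left nhdsWithin_le_nhds
    exact mem_closure_of_tendsto this (mem_of_superset (Ioc_mem_nhdsGT one_pos) y5)
  have y7 : 0 < Z.lam ((ch x).symm y) :=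
    hr (by linarith [dist_triangle_left y (pt x) z]) (hΩ y6)
  have y8 := (hc.fr _ ⟨y6, by rwa [hc.op.interior_eq]⟩).resolve_right y7.ne'
  rw [lam_loc Z he, sub_pos] at y7
  have c : Continuous fun s : ℝ =>
      P366RB.sq (Z.g (ch x)) (fun i w => (s • (z - y)) i + Z.Xc (ch x) i w) y := by
    unfold P366RB.sq; fun_prop
  obtain ⟨s, s1, s2⟩ := ((((c.tendsto' 0 (P366RB.sq (Z.g (ch x)) (Z.Xc (ch x)) y)
    (by simp)).eventually (gt_mem_nhds y7)).filter_mono nhdsWithin_le_nhds).and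
      (Ioc_mem_nhdsGT (zero_lt_one' ℝ))).exists
  refine hE _ he y _ (hΩ y6) y8 s1 (mem_of_superset (Ioc_mem_nhdsGT one_pos) fun t ht => ?_)
  rw [mem_ofPred_eq, smul_smul]
  exact y5 _ ⟨mul_pos ht.1 s2.1, mul_le_one₀ ht.2 s2.1.le s2.2⟩

theorem out : OUT := fun _ _ _ Z W hZ hc hE => ⟨fun _ => fr_zero hZ hc hE,
  out_of hc.far hc.op (fun x hx => Real.sqrt_pos.2 (hc.pos x hx))
    (hZ.clam.mono (hZ.cls hc.sub)).sqrt fun x hx => by
      rw [Dat.pot, fr_zero hZ hc hE hx, Real.sqrt_zero]⟩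

theorem Pre.kid (hp : Pre Z W) (hs : Z.St W) (hx : x ∈ W) : ∀ᶠ z in 𝓝 (pt x),
    P366RB.Kid (Z.g (ch x)) (Z.K (ch x)) (Z.a (ch x)) (Z.Nc (ch x)) (Z.Xc (ch x)) (Z.p (ch x)) z :=
  (ev_pt.1 (hp.cp.op.mem_nhds hx)).mono fun z hz =>
    (hp.vac _ (ch_mem x) z hz).kid (hs _ (ch_mem x) z hz)

theorem Pre.ip_eq (hp : Pre Z W) (hs : Z.St W) (hx : x ∈ W) : ip Z.quo Z.pot Z.pot x = Z.w0 x := by
  have he := ch_mem x
  have h := (P366RB.sta n _ _ _ _ _ _ _ (Z.D.met.rep he) (Z.D.smK _ he) (rep_sy Z.D.syK _)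
    (hp.kid hs hx)).2.2.2.2
  rwa [← P366RB.loc_Vm he, ← P366RB.rep_hm he, ip_pt] at h

theorem kom_eq (Z : Dat n M) {r : ℝ} (hr : R0 M ≤ r) :
    ∫ x, (∑ i, ∑ j, up Z.D.g i j x * pd i (cut r) x * Z.p (ch x) j (pt x)) * dens Z.D.g x =
      P366RB.kom Z.D Z.N Z.X r := by
  refine integral_out hr (fun x hx => by simp [pd_cut_in hx])
    (fun y hy => by simp [P366Z.pd_cut_in hy]) fun y hy => ?_
  have h := hr.trans hy
  rw [show dens Z.D.g (yp y) = _ from dens_ye h _]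
  refine congrArg (· * _) (Finset.sum_congr rfl fun i _ => ?_)
  rw [Finset.mul_sum]
  refine Finset.sum_congr rfl fun j _ => ?_
  have h1 : pd i (cut r) (yp y : M) = P366.Stmt.pd i (P366Z.cut r) y := by
    have h3 : px (yp y : M) = y := px_yp (M := M) (by linarith)
    have := pd_px (x := (yp y : M)) (by rwa [h3]) i (P366Z.cut r)
    rwa [h3] at this
  have h2 : Z.p (ch (yp y : M)) j (pt (yp y : M)) =
      pd j Z.N (yp y) + ∑ l, Z.D.K (yp y) j l * Z.X l (yp y) := by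
    simp only [pp, rep_pt, repV_pt]; rfl
  rw [h1, h2, show pd j Z.N (yp y) = _ from pd_ye h j _, mul_right_comm, mul_comm]
  rfl

theorem s2 : S2 := fun _ M _ Z _ hZ hp hs hl => ⟨Z.q,
  P366RB.stat_of (P366EN.end_of P366OC.oc P366NW.new) P366NW.rob hZ.dim Z.D hZ.q0 hZ.κ0 hp.cp.op hp.cp.con
    (fun _ hx => ⟨_, _, hp.kid hs hx⟩) hp.out (fun ε hε => (hl ε hε).imp fun _ h =>
      ⟨h.1, fun x hx k => (hp.ip_eq hs hx).trans_le (h.2 x hx k)⟩) hZ.og hZ.oN hZ.oX hZ.one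
    (hZ.kom.congr' ((eventually_ge_atTop (R0 M)).mono fun _ => kom_eq Z))⟩

theorem s3b : S3B := fun n M _ Z W hZ hp hs hW ⟨y, hy⟩ => by
  subst hW
  refine P366SB.s3b n M Z.D Z.N Z.pot Z.X Z.quo _ y hZ.dim (P366RB.kap hZ.dim hZ.κ0).1
    (fun x hx => ?_) hy
  have h : Z.pot x ^ 2 = Z.lam x := Real.sq_sqrt (hp.cp.pos x hx).le
  exact ⟨⟨_, _, hp.kid hs hx⟩, h, fun i j => by rw [h]; rfl⟩

theorem eq_of (H : FULL) (h : EQM) : EQ := P366SB.eq_of H fun n M _ D m P h1 h2 h3 h4 h5 h6 h7 h8 =>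
  h n M D m P ⟨h1, h2, h3, h4, h6, h7, h8⟩ h5

end Vale.Agent.P366F
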