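import Vale.Agent.P366DB.Defs
import Vale.Agent.P366K2.Pl

/-!
# P366F: the multiplier rule from its parts
-/

open MeasureTheory Filter Topology Set
open scoped ContDiff
open Vale.Agent.P366M Vale.Agent.P366K Vale.Agent.P366DB
open Vale.Agent.P366DV (ms)

noncomputable section

namespace Vale.Agent.P366F

variable {n : ℕ} {M : Type} [Mfe n M]

/-- the multipliers with all their parameters -/
structure Mu (n : ℕ) (M : Type) [Mfe n M] where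
  D : Exterior n M
  m : ℝ
  P : Fin n → ℝ
  κ : ℝ
  R1 : ℝ
  R2 : ℝ
  ε : ℝ
  Z : Fin n → M → ℝ
  W : Type
  mW : MeasurableSpace W
  π : W → M
  ν : W → Fin n → ℝ
  α : Measure W
  β : Measure W
  η : Measure M
  c : ℝ
  l : ℝ

attribute [instance] Mu.mW

namespace Mu

variable (A : Mu n M)

/-- the hypotheses on the multipliers -/
structure Ok : Prop where
  eqc : Eqc A.D A.m A.P A.κ
  ε0 : 0 < A.ε
  ε1 : A.ε ≤ 1 / 2
  mm : Mm A.D A.m A.P A.κ A.R1 A.R2 A.ε A.Z A.π A.ν A.α A.β A.η A.c A.l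

/-- `N`, `X` represent `α` -/
abbrev Rp (N : M → ℝ) (X : Fin n → M → ℝ) : Prop := P366K.Rp A.D A.ε A.π A.ν A.α N X

/-- the set without source -/
abbrev U : Set M := Us A.D A.π A.β

/-- `N`, `X` are smooth where there is no source -/
def Sm (N : M → ℝ) (X : Fin n → M → ℝ) : Prop := ∀ e ∈ At M, ∀ y, e.symm y ∈ A.U →
  ContDiffAt ℝ ∞ (loc e N) y ∧ ∀ j, ContDiffAt ℝ ∞ (repV e X j) y

/-- the equations hold where there is no source -/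
def Kq (N : M → ℝ) (X : Fin n → M → ℝ) : Prop := ∀ e ∈ At M, ∀ y, e.symm y ∈ A.U →
  P366F.Kq (rep e A.D.g) (rep e A.D.K) (loc e N) (repV e X) y

/-- the first equation holds almost everywhere -/
def Wk (N : M → ℝ) (X : Fin n → M → ℝ) : Prop := ∀ e ∈ At M, ∀ᵐ y, 0 < A.D.F (e.symm y) →
  P366XR.Kid (rep e A.D.g) (rep e A.D.K) (loc e N) (repV e X) y

/-- the source is stationary -/
def V1 : Prop := ∀ e ∈ At M, ∀ (Y : Fin n → P366.Stmt.E n → ℝ) (φ : P366.Stmt.E n → ℝ)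
  (C : Set (P366.Stmt.E n)) (x : P366.Stmt.E n), IsCompact C → C ⊆ {y | 0 < A.D.F (e.symm y)} →
  (∀ i, P366.Stmt.Smooth (Y i)) → P366.Stmt.Smooth φ → (∀ y ∉ C, φ y = 0 ∧ ∀ i, Y i y = 0) →
  0 < A.D.F (e.symm x) → e.symm x ∉ A.U →
  (∀ y ν, e.symm y ∉ A.U → ∑ i, ∑ j, rep e A.D.g y i j * ν i * ν j = 1 →
    0 ≤ Qc (rep e A.D.g) (rep e A.D.K) Y φ y ν) →
  ∃ ν, ∑ i, ∑ j, rep e A.D.g x i j * ν i * ν j = 1 ∧ Qc (rep e A.D.g) (rep e A.D.K) Y φ x ν ≤ 0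

/-- the data of the second half -/
abbrev dat (N : M → ℝ) (X : Fin n → M → ℝ) (q N0 : ℝ) (X0 : Fin n → ℝ) : Dat n M :=
  ⟨A.D, N, X, A.U, q, A.κ, N0, X0⟩

end Mu

/-- a statement about all multipliers -/
def AllM (B : ∀ (n : ℕ) (M : Type) [Mfe n M], Mu n M → Prop) : Prop :=
  ∀ (n : ℕ) (M : Type) [Mfe n M] (A : Mu n M), A.Ok → B n M A

def KQ : Prop := AllM fun _ _ _ A => ∀ N X, A.Rp N X → A.Sm N X → A.Kq N X
def WK : Prop := AllM fun _ _ _ A => ∀ N X, A.Rp N X → A.Wk N X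
def V1W : Prop := AllM fun _ _ _ A => ∀ N X, A.Rp N X → A.Wk N X → A.V1
def CPOS : Prop := AllM fun _ _ _ A => ∀ N X h k, Var A.D A.ε h k 0 0 1 → A.Rp N X → A.Kq N X →
  0 < A.c
def SCALE : Prop := AllM fun _ _ _ A => 0 < A.c → ∃ (α β : Measure A.W) (η : Measure _) (l : ℝ),
  Mm A.D A.m A.P A.κ A.R1 A.R2 A.ε A.Z A.π A.ν α β η 1 l
def OKK : Prop := AllM fun _ _ _ A => A.c = 1 → (∀ x, A.R2 ≤ ‖px x‖ → 0 < A.D.F x) →
  ∀ N X, A.Rp N X → A.Kq N X → ∃ q N0 X0, (A.dat N X q N0 X0).Ok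

theorem kout_of (h1 : EQK) (h2 : STR) (h3 : CAL2) (h4 : MULT) (h5 : P366K2.RPX) (h6 : KQ)
    (h7 : CPOS) (h8 : SCALE) (h9 : OKK) (k1 : WK) (k2 : V1W) (k3 : DB) : KOUT := by
  intro n M _ D m P H
  obtain ⟨κ, hκ⟩ := h1 n M D m P H.dim H.af H.dec H.mar H.en H.mo H.eq
  obtain ⟨ε0, e0, -, he⟩ := h2 n M D H.dim H.af
  have e1 : 0 < min ε0 (1 / 2) := lt_min e0 one_half_pos
  obtain ⟨h, k, hv⟩ := he _ e1 (min_le_left _ _)
  obtain ⟨R1, R2, Z, -, hc, ho⟩ := h3 n M D 0 H.dim H.af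
  obtain ⟨W, mW, π, ν, α, β, η, c, l, hm⟩ := h4 n M D m P κ R1 R2 _ Z hκ hc
    ((min_le_right ε0 (1 / 2)).trans (by norm_num))
  let A : Mu n M := ⟨D, m, P, κ, R1, R2, min ε0 (1 / 2), Z, W, mW, π, ν, α, β, η, c, l⟩
  have hA : A.Ok := ⟨hκ, e1, min_le_right _ _, hm⟩
  obtain ⟨N, X, hr, hs⟩ := h5 n M W D m P κ R1 R2 _ Z π ν α β η c l hκ hm
  obtain ⟨α', β', η', l', hm'⟩ := h8 n M A hA (h7 n M A hA N X h k hv hr (h6 n M A hA N X hr hs))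
  let B : Mu n M := ⟨D, m, P, κ, R1, R2, min ε0 (1 / 2), Z, W, mW, π, ν, α', β', η', 1, l'⟩
  have hB : B.Ok := ⟨hκ, e1, min_le_right _ _, hm'⟩
  obtain ⟨N, X, hr, hs⟩ := h5 n M W D m P κ R1 R2 _ Z π ν α' β' η' 1 l' hκ hm'
  obtain ⟨q, N0, X0, hZ⟩ := h9 n M B hB rfl
    (fun x hx => hc.pos x (by have : R2 ≤ ‖px x‖ := hx; linarith [hc.R12])) N X hr
    (h6 n M B hB N X hr hs)
  have hw := k1 n M B hB N X hr
  have hd := k3 n M (B.dat N X q N0 X0) m P κ R1 R2 _ 1 l' Z W π ν α' β' η' hκ hc ho hm' hr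
    subset_rfl (one_mul κ).symm
  exact ⟨_, rfl, hZ, ⟨hw, hd.1, hd.2, k2 n M B hB N X hr hw⟩, hκ.ms.symm⟩

end Vale.Agent.P366F
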