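import Vale.Agent.P366F.Ks

/-!
# P366F: normalisation of the multipliers
-/

open MeasureTheory Filter Topology Set
open scoped NNReal
open Vale.Agent.P366M Vale.Agent.P366K

namespace Vale.Agent.P366F

theorem scale : SCALE := fun n M _ A hA hc => by
  have h := hA.mm
  let a : ℝ≥0 := ⟨A.c⁻¹, (inv_pos.2 hc).le⟩
  have a0 : a ≠ 0 := fun k => (inv_pos.2 hc).ne' (congrArg NNReal.toReal k)
  have ha : (a : ℝ) * A.c = 1 := inv_mul_cancel₀ hc.ne'
  have := h.fα
  have := h.fβ
  have := h.fη
  refine ⟨a • A.α, a • A.β, a • A.η, a * A.l, h.mπ, h.unit, h.dom, h.m1, h.m2, inferInstance,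
    inferInstance, inferInstance, Measure.ae_smul_measure h.sβ a, Measure.ae_smul_measure h.sη a,
    zero_le_one, mul_nonneg a.2 h.l0, .inr (.inr (.inl one_pos)), Measure.ae_smul_measure h.act a,
    ?_, fun Y hY => ?_, fun p k dE dP l' hv => ?_⟩
  · rw [measureReal_nnreal_smul_apply, h.mass, ← mul_assoc, ha]
  · rw [integral_smul_nnreal_measure, ← ha, mul_assoc]
    exact mul_le_mul_of_nonneg_left (h.area Y hY) a.2
  · simp only [integral_smul_nnreal_measure, NNReal.smul_def, smul_eq_mul]
    linear_combination a * h.id p k dE dP l' hv + dm A.m A.P dE dP * ha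

end Vale.Agent.P366F
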