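import Vale.Agent.P366F.Ad
import Vale.Agent.P366F.Sc
import Vale.Agent.P366SB.Jet
import Vale.Agent.P366SB.Src
import Vale.Agent.P366EN.Vac
import Vale.Agent.P366EN.Adj
import Vale.Agent.P366XR.V1
import Vale.Agent.P366ST.Main
import Vale.Agent.P366HB.Gl
import Vale.Agent.P366CE.Kq
import Vale.Agent.P366K.Rep
import Vale.Agent.P366K3.Str
import Vale.Agent.P366RY.Conf
import Vale.Agent.P366CL.Main
import Vale.Agent.P366DB.Mu4
import Vale.Agent.P366DB.Db

/-!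
# P366F: the blocks which are finished first
-/

open Vale.Agent.P366M (FULL)
open Vale.Agent.P366K (rep_)
open Vale.Agent.P366RY (conf)

namespace Vale.Agent.P366F

theorem kout1 (H : FULL) (h1 : P366K.NI) (h2 : P366K2.RPX) (h3 : CPOS) (h4 : OKK) (h5 : WK)
    (h6 : V1W) (h7 : P366DB.BV) : KOUT :=
  kout_of (P366CE.eqk H) (P366K3.str conf rep_) P366CL.cal2 (P366DB.mult h1 rep_) h2
    (P366CE.kq rep_ P366EN.adj) h3 scale h4 h5 h6 (P366DB.db_of (P366SB.src conf rep_) h7)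

theorem eq1 (H : FULL) (h0 : KOUT) (h1 : V2) (h2 : PAN) (h3 : LIM) (h4 : EDGE)
    (h5 : P366DV.S3A) : EQ :=
  eq_of H (eqm_of h0 P366SB.sysF P366SB.bnd P366EN.ncc P366EN.vac cmp out P366XR.v1 h1 h2 P366HB.hd
    P366ST.s1 h3 s2 h4 h5 s3b)

end Vale.Agent.P366F
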