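import Vale.Agent.P366F.M1
import Vale.Agent.P366NW.S3a
import Vale.Agent.P366NW.Iso
import Vale.Agent.P366NW.Gt2
import Vale.Agent.P366DV.Dev2
import Vale.Agent.P366FN.Fin
import Vale.Agent.P366CL.Na
import Vale.Agent.P366ND.Nt
import Vale.Agent.P366OC.Ne
import Vale.Agent.P366TR.Trc
import Vale.Agent.P366GL.Main
import Vale.Agent.P366XR.V1w
import Vale.Agent.P366RY.Gd
import Vale.Agent.P366BV.Bv

/-!
# P366F: more finished blocks
-/

open Vale.Agent.P366M (FULL)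
open Vale.Agent.P366K (rep_)
open Vale.Agent.P366RY (conf)

namespace Vale.Agent.P366F

theorem kout2 (H : FULL) (h1 : P366CL.ND) (h2 : P366K2.LOC) (h3 : CPOS) (h4 : OKK) : KOUT :=
  kout1 H (P366CL.ni_of H h1 P366ND.nt P366OC.ne)
    (P366K2.rpx_of (P366TR.trc conf rep_) h2 P366GL.glue) h3 h4 (P366XR.wk_of rep_)
    (P366XR.L.v1w_of rep_ P366RY.gd P366NW.gt) P366BV.bv

theorem eq2 (H : FULL) (h0 : KOUT) (h1 : V2) (h2 : PAN) (h3 : LIM) (h4 : EDGE) : EQ :=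
  eq1 H h0 h1 h2 h3 h4 (P366NW.s3a_of (P366NW.iso_of P366DV.dev) P366FN.fin)

end Vale.Agent.P366F
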