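import Vale.Agent.P366F.M2
import Vale.Agent.P366HB.Edge
import Vale.Agent.P366HP.Pan
import Vale.Agent.P366CU.Loc2
import Vale.Agent.P366RB.Reg
import Vale.Agent.P366RB.Asm
import Vale.Agent.P366RB.Wsy
import Vale.Agent.P366AP.Apr
import Vale.Agent.P366K2.Bd2
import Vale.Agent.P366RY.Coef

/-!
# P366F: more finished blocks
-/

open Vale.Agent.P366M (FULL)

namespace Vale.Agent.P366F

theorem eq3 (H : FULL) (h1 : P366CL.ND) (h3 : CPOS) (h4 : OKK) (h5 : V2) : EQ :=
  eq2 H (kout2 H h1 (P366CU.loc_of P366RB.reg (P366RB.regb_of P366AP.apr P366K2.bdm) P366RB.smo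
    (P366RB.wsy P366RY.coef) P366K.rep_) h3 h4) h5 P366HP.pan P366HB.lim P366HB.edge

end Vale.Agent.P366F
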