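import Vale.Agent.P366F.M3
import Vale.Agent.P366K.Nd
import Vale.Agent.P366K3.Okk
import Vale.Agent.P366IV.Main

/-!
# P366F: all blocks but one
-/

open Vale.Agent.P366M (FULL)

namespace Vale.Agent.P366F

theorem eq4 (H : FULL) (h : CPOS) : EQ :=
  eq3 H P366K.nd h (P366K3.okk P366RY.conf P366K.rep_) P366IV.v2

end Vale.Agent.P366F
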