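import Vale.Agent.P366F.M4
import Vale.Agent.P366K3.Cp
import Vale.Agent.P366Q.Top

/-!
# P366F: the equality case
-/

namespace Vale.Agent.P366F

theorem eq : EQ := eq4 P366M.Top.full (P366K3.cpos P366RY.conf P366K.rep_)

end Vale.Agent.P366F
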