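import Vale.Agent.P366N.St2
import Vale.Agent.P366.T4.Slice

/-!
# P366: the equality case for exteriors which are manifolds with boundary
-/

open Set Manifold
open scoped ContDiff
open Vale.Agent.P366.Stmt Vale.Agent.T4

noncomputable section

namespace Vale.Agent.P366N.St

variable {n : ℕ}

/-- At the point `y` of the coordinate space, the fields `g`, `K` are the induced metric and the
second fundamental form `K(X, Y) = - ⟨N, ∇_X Y⟩` of the map `Φ` into the exterior
Schwarzschild–Tangherlini spacetime of mass `M`, with the future unit normal `N`. -/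
def SliceAt (M : ℝ) (g K : Field n) (Φ : Fin (n + 1) → E n → ℝ) (N : Fin (n + 1) → ℝ)
    (y : E n) : Prop := 0 < N 0 ∧
  (∀ i j, g y i j = ∑ a, ∑ b, tang M (toPt Φ y) a b * pd i (Φ a) y * pd j (Φ b) y) ∧
  ∑ a, ∑ b, tang M (toPt Φ y) a b * N a * N b = -1 ∧
  (∀ i, ∑ a, ∑ b, tang M (toPt Φ y) a b * N a * pd i (Φ b) y = 0) ∧
  ∀ i j, K y i j = -∑ a, ∑ b, tang M (toPt Φ y) a b * N a * (pd i (pd j (Φ b)) y +
    ∑ c, ∑ d, chr (tang M) b c d (toPt Φ y) * pd i (Φ c) y * pd j (Φ d) y)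

variable [NeZero n] {Ω : Type} [TopologicalSpace Ω] [ChartedSpace (EuclideanHalfSpace n) Ω]

/-- The function `G` in the chart at `p`. -/
def fnIn (G : Ω → ℝ) (p : Ω) (y : E n) : ℝ := G ((crd n p).symm y)

variable (n) in
/-- `f` is smooth on `s`. -/
def SmoothOn (f : Ω → ℝ) (s : Set Ω) : Prop := ContMDiffOn (𝓡∂ n) 𝓘(ℝ, ℝ) ∞ f s

namespace Data

variable (D : Data n Ω)

/-- The boundary is marginally future trapped: `θ₊ = 0`. -/
def Marginal : Prop := ∀ x ∈ bdry n Ω, ∀ G L, Rep D.g x G → Rep D.K x L →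
  thetaPlus G L (fun y => y 0) (crd n x x) = 0

/-- No weakly future trapped enclosing cut `{u = 0}` lies in the interior of `Ω`. -/
def Outermost : Prop := ¬∃ u : Ω → ℝ, D.IsCut u ∧ (∀ x ∈ bdry n Ω, u x < 0) ∧
  ∀ x, u x = 0 → ∀ G L, Rep D.g x G → Rep D.K x L → thetaPlus G L (fnIn u x) (crd n x x) ≤ 0

/-- The interior of `Ω` with `g` and `K` is a spacelike slice of the exterior
Schwarzschild–Tangherlini spacetime of mass `M`: there is a smooth map `Φ = (t, y)` whose spatial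
part `y` is a bijection onto the whole region outside the horizon and which induces `g` and
`K`. -/
def IsSlice (M : ℝ) : Prop := ∃ Φ : Fin (n + 1) → Ω → ℝ,
  (∀ a, SmoothOn n (Φ a) (bdry n Ω)ᶜ) ∧
  BijOn (fun x => (WithLp.toLp 2 fun i => Φ i.succ x : E n)) (bdry n Ω)ᶜ
    {y | 0 < len y ∧ 0 < stF M y} ∧
  ∀ x ∉ bdry n Ω, ∃ N, SliceAt M (inChart D.g x) (inChart D.K x) (fun a => fnIn (Φ a) x) N
    (crd n x x)

end Data

end Vale.Agent.P366N.St
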